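import Vale.Agent.Lib.P095.EFinal
import Vale.Agent.Lib.P095.CCDefs
import Vale.Agent.Lib.P101.JSimple

open Vale.Agent.Lib.P101 Vale.Agent.Lib.P095

universe u v

/-- Equivariant Jiang-Su stability for locally finite groups (in particular all finite groups).

First part: there is a C*-algebra `Z` with the properties of the Jiang-Su algebra recorded in
`IsJiangSu` (it is constructed in the proof).

Second part: let `A` be a separable unital C*-algebra such that `F_ω(A)` has no characters (which
holds when `A` is `Z`-stable), let `G` be a countable locally finite group and `α` an action of `G`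
on `A`. Then `α` is cocycle conjugate to `α ⊗ id_Z`, in the sense of `CocConj`. -/
theorem Vale.Agent.Results.P095.CocycleConj.result :
    (∃ (Z : Type) (_ : CStarAlgebra Z), IsJiangSu Z) ∧
    ∀ {A Z : Type u} {G : Type v} [CStarAlgebra A] [TopologicalSpace.SeparableSpace A]
      [CStarAlgebra Z] [Group G] [Countable G]
      (_ : ∀ s : Finset G, Finite (Subgroup.closure (s : Set G)))
      (ω : Ultrafilter ℕ), (ω : Filter ℕ) ≤ Filter.cofinite → IsJiangSu Z →
      IsEmpty (FOmega A ω →⋆ₐ[ℂ] ℂ) → ∀ α : Act G A, Nonempty (CocConj Z α) := by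
  refine ⟨⟨J.ZZ, inferInstance, J.ZZ_isJiangSu⟩, fun hlf ω hω hZ hchar α => ?_⟩
  obtain ⟨σ, φ, β, w, h1, h2, h3, h4, h5, h6⟩ := main_equi hlf hω hZ hchar α
  exact ⟨⟨σ, φ, β, w, h1, h2, h3, h4, h5, h6⟩⟩
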