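import Vale.Agent.Lib.P095.Fix

open Vale.Agent.Lib.P101 Vale.Agent.Lib.P095

universe u v

/-- Let a finite group `G` act on a separable unital C*-algebra `A`, and let `ω` be a free
ultrafilter. If `F_ω(A)` has no characters, then every prime dimension drop algebra maps unitally
into the fixed point algebra `F_ω(A)^G`: there is a unital star-homomorphism `ρ` into `F_ω(A)` such
that every representing sequence `u` of an element of its range satisfies
`lim_ω ‖α_g(u_n) - u_n‖ = 0` for all `g`. -/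
theorem Vale.Agent.Results.P095.FixedDimDrop.result {A : Type u} [CStarAlgebra A]
    [TopologicalSpace.SeparableSpace A] {G : Type v} [Group G] [Fintype G]
    (ω : Ultrafilter ℕ) (hω : (ω : Filter ℕ) ≤ Filter.cofinite)
    (hchar : IsEmpty (FOmega A ω →⋆ₐ[ℂ] ℂ)) (α : G →* (A ≃⋆ₐ[ℂ] A))
    (p q : ℕ) (hpq : Nat.Coprime p q) (hp : 2 ≤ p) (hq : 2 ≤ q) :
    ∃ ρ : DP p q →⋆ₐ[ℂ] FOmega A ω, ∀ (t : DP p q) (u : BoundedContinuousFunction ℕ A),
      qk A ω u = (ρ t).1 → ∀ g, Filter.Tendsto (fun n => ‖α g (u n) - u n‖) (ω : Filter ℕ)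
        (nhds 0) := by
  have h1 : ∀ x, (α 1 : A →⋆ₐ[ℂ] A) x = x := fun x => by
    rw [map_one]; rfl
  have hmul : ∀ g h x, (α (g * h) : A →⋆ₐ[ℂ] A) x = (α g : A →⋆ₐ[ℂ] A) ((α h : A →⋆ₐ[ℂ] A) x) :=
    fun g h x => by
      rw [map_mul]; rfl
  obtain ⟨ρ₀⟩ := exists_hom_FixF (a := fun g => (α g : A →⋆ₐ[ℂ] A)) hω hchar h1 hmul hpq hp hq
  let j : FixF ω (fun g => (α g : A →⋆ₐ[ℂ] A)) →⋆ₐ[ℂ] FOmega A ω :=
    { toFun := fun x => ⟨x.1, x.2.1⟩
      map_one' := rfl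
      map_mul' := fun _ _ => rfl
      map_zero' := rfl
      map_add' := fun _ _ => rfl
      commutes' := fun _ => rfl
      map_star' := fun _ => rfl }
  refine ⟨j.comp ρ₀, fun t u hu g => ?_⟩
  have h2 : qk A ω u ∈ FixF ω (fun g => (α g : A →⋆ₐ[ℂ] A)) := by
    rw [hu]
    exact (ρ₀ t).2
  have h3 := h2.2 g
  have h4 : qk A ω (compH (α g : A →⋆ₐ[ℂ] A) u) = qk A ω u := by
    rwa [← qkH_apply, mapO_qkH] at h3
  exact qk_eq_iff.1 h4
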